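import Vale.Agent.Lib.P339.Proofs

namespace Vale.Agent.Results.P339.A_ntw_gadget

open Vale.Agent.Lib.P339

theorem result {X ι : Type} [Fintype X] [DecidableEq X] [Fintype ι] [DecidableEq ι] [Nonempty ι]
    (Φ : ι → Fin 3 → X × Bool) :
    IsTwoToOne (reduction Φ) ∧
    (reduction Φ).value = 4 / 5 + (1 / 5) * ntwValue Φ ∧
    ((∃ σ : X → Bool, ∀ i, ntwSat σ (Φ i)) ↔ (reduction Φ).value = 1) ∧
    (∀ ε : ℚ, ntwValue Φ ≤ 5 / 8 + ε → (reduction Φ).value ≤ 37 / 40 + ε / 5) := by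
  refine ⟨isTwoToOne Φ, value_eq Φ, satisfiable_iff Φ, ?_⟩
  intro ε h
  rw [value_eq]
  linarith

end Vale.Agent.Results.P339.A_ntw_gadget
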